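import Vale.Agent.P322.M.Mix

/-!
The reflective checks for a block of noises, with exact planes.
-/

namespace Vale.Agent.P322

open Real

/-- An entry of the table of planes: the contact data `a, b`, and at each of the two ends of the
interval of noises the lowered multiplier and the scaled coefficients. -/
structure MP where
  a : NF
  b : NF
  μ₁ : NF
  c₁ : NF
  k₁ : NF
  μ₂ : NF
  c₂ : NF
  k₂ : NF

/-- The tree of the covering of the triangle of means. -/
inductive TN where
  | out
  | methA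
  | corner
  | bleaf (p z C : NF)
  | pleaf (i : ℕ) (p : NF)
  | s1 (x : NF) (l r : TN)
  | s2 (x : NF) (l r : TN)

/-- The data of a block. -/
structure MBlock where
  base : BlockD
  pt : NF
  T₁ : NF
  T₂ : NF
  planes : List MP
  tree : TN

/-- The ratio `s² / (t² - ρ²)`. -/
def RR (s t ρ : NF) : NF := nmul (nmul s s) (ninv (nsub (nmul t t) (nmul ρ ρ)))

/-- The ratio `(t + ρ) / (t - ρ)`. -/
def AR (t ρ : NF) : NF := nmul (nadd t ρ) (ninv (nsub t ρ))

/-- The check of a plane at one end. -/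
def endOK (a b ρ T μ c k : NF) : Bool :=
  nle (nmul μ (logHiF (RR (nadd a b) b none1))) (logLoF (RR (nadd a b) b ρ)) &&
  nle (nmul (logHiF (RR (nadd a b) b ρ)) (logHiF (RR (nadd a b) a none1)))
      (nmul (nadd (logLoF (RR (nadd a b) a ρ)) (nmul (nnat 2) (nmul k T)))
        (logLoF (RR (nadd a b) b none1))) &&
  nle (nmul (nadd (nmul (nnat 2) (nmul c T))
        (nmul (nmul ρ (nadd (logHiF (AR a ρ)) (logHiF (AR b ρ)))) nhalf))
      (logHiF (RR (nadd a b) b none1)))
    (nmul (logLoF (RR (nadd a b) b ρ))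
      (nmul (nadd (logLoF (AR a none1)) (logLoF (AR b none1))) nhalf))

/-- The parameter `ρ` at the upper end of the noises. -/
def rho₁ (D : MBlock) : NF := ncomp (nmul (nnat 2) D.base.ehi)

/-- The parameter `ρ` at the lower end of the noises. -/
def rho₂ (D : MBlock) : NF := ncomp (nmul (nnat 2) D.base.elo)

/-- The check of an entry of the table. -/
def mpOK (D : MBlock) (q : MP) : Bool :=
  nlt none1 q.a && nle q.a q.b && nle q.μ₁ q.μ₂ && nle q.μ₂ none1 &&
  endOK q.a q.b (rho₁ D) D.T₁ q.μ₁ q.c₁ q.k₁ && endOK q.a q.b (rho₂ D) D.T₂ q.μ₂ q.c₂ q.k₂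

/-- The tangent of the entropy, at the point `e`. -/
def ntang (LP LQ e : NF) : NF := nadd (nmul e LP) (nmul (ncomp e) LQ)

/-- The check of the linear upper bound of the entropy of the noise. -/
def checkT (D : MBlock) : Bool :=
  nlt D.base.ehi nhalf && npos D.pt && nle D.pt nhalf &&
  nle (ntang (logHiF (ninv D.pt)) (logHiF (ninv (ncomp D.pt))) D.base.ehi) D.T₁ &&
  nle (ntang (logHiF (ninv D.pt)) (logHiF (ninv (ncomp D.pt))) D.base.elo) D.T₂ &&
  nle D.T₂ D.T₁

/-- The vertex check of a cell at one end. -/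
def vtx (κ Ξ p LP LQ μ c k a₁ a₂ : NF) : Bool :=
  nle (nadd (nmul k (nmul (nadd a₁ a₂) nhalf))
        (nadd (nmul μ (nadd (nmul κ (entHiF (nmul (nadd a₁ a₂) nhalf)))
            (nmul Ξ (nmul (nsub a₁ a₂) (nsub a₁ a₂)))))
          (nmul (ncomp μ) (majF κ Ξ p LP LQ (nmul (nadd a₁ a₂) nhalf)))))
    (nadd (nmul c (nsub a₁ a₂)) (nmul (nmul μ κ) (nmul (nadd (entLoF a₁) (entLoF a₂)) nhalf)))

/-- Lookup in the table. -/
def getPl : List MP → ℕ → Option MP
  | [], _ => none
  | x :: _, 0 => some x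
  | _ :: t, n + 1 => getPl t n

/-- The check of a cell with a plane of the table. -/
def pcell (κ Ξ p LP LQ a1L a1R a2L a2R : NF) (q : MP) : Bool :=
  vtx κ Ξ p LP LQ q.μ₁ q.c₁ q.k₁ a1L a2L && vtx κ Ξ p LP LQ q.μ₁ q.c₁ q.k₁ a1L a2R &&
  vtx κ Ξ p LP LQ q.μ₁ q.c₁ q.k₁ a1R a2L && vtx κ Ξ p LP LQ q.μ₁ q.c₁ q.k₁ a1R a2R &&
  vtx κ Ξ p LP LQ q.μ₂ q.c₂ q.k₂ a1L a2L && vtx κ Ξ p LP LQ q.μ₂ q.c₂ q.k₂ a1L a2R &&
  vtx κ Ξ p LP LQ q.μ₂ q.c₂ q.k₂ a1R a2L && vtx κ Ξ p LP LQ q.μ₂ q.c₂ q.k₂ a1R a2R

/-- The check of a leaf with a plane. -/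
def pleafOK (D : MBlock) (a1L a1R a2L a2R : NF) (i : ℕ) (p : NF) : Bool :=
  match getPl D.planes i with
  | none => false
  | some q =>
    npos p && nle p nhalf && nle a2R a1L && nle a1R none1 &&
    pcell D.base.κ D.base.Ξhi p (logHiF (ninv p)) (logHiF (ninv (ncomp p))) a1L a1R a2L a2R q

/-- The check `Om z ≤ C z²`. -/
def omOK (z C : NF) : Bool :=
  nle (nmul (onePlus z) (logHiF (onePlus z)))
    (nadd (nmul C (nmul z z)) (nmul (ncomp z) (logLoF (ninv (ncomp z)))))

/-- The size condition of the second method on a leaf. -/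
def rowB2 (D : BlockD) (C AL X dB : NF) (s : NF × NF × NF) : Bool :=
  nle (nmul (nmul s.2.1 (nadd (nmul (nmul D.κ C) (ninv (nmul (nnat 8) (nmul AL (ncomp AL))))) D.Ξhi))
      (nadd (nmul (nmul s.2.1 X) il2F) dB))
    (nmul (nnat 2) s.2.2)

/-- The minimum with one half. -/
def minHalf (x : NF) : NF := if nle x nhalf = true then x else nhalf

/-- The check of a leaf with the second method. -/
def bleafOK (D : BlockD) (a1L a1R a2L a2R p z C : NF) : Bool :=
  npos (nmul (nadd a1L a2L) nhalf) && nle (nmul (nadd a1L a2L) nhalf) nhalf &&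
  npos p && nle p nhalf && npos z && nlt z none1 && nle a2L a1R && omOK z C &&
  nle (nsub a1R a2L) (nmul (nmul (nnat 2) z) (nmul (nadd a1L a2L) nhalf)) &&
  nle (logHiF (ninv (ncomp p))) (logHiF (ninv p)) &&
  D.subs.all (rowB2 D C (nmul (nadd a1L a2L) nhalf)
    (majF D.κ D.Ξhi p (logHiF (ninv p)) (logHiF (ninv (ncomp p)))
      (minHalf (nmul (nadd a1R a2R) nhalf)))
    (nsub a1R a2L))

/-- The check of the tree. -/
def chk (D : MBlock) : NF → NF → NF → NF → TN → Bool
  | a1L, a1R, a2L, _, .out => nle a1R a2L || nle none1 (nadd a1L a2L)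
  | _, a1R, _, a2R, .methA => nle (nmul (nadd a1R a2R) nhalf) D.base.A₀
  | a1L, _, _, a2R, .corner => nle a2R a1L && nle (ncomp D.base.x₀) (nsub a1L a2R)
  | a1L, a1R, a2L, a2R, .bleaf p z C => bleafOK D.base a1L a1R a2L a2R p z C
  | a1L, a1R, a2L, a2R, .pleaf i p => pleafOK D a1L a1R a2L a2R i p
  | a1L, a1R, a2L, a2R, .s1 x l r => chk D a1L x a2L a2R l && chk D x a1R a2L a2R r
  | a1L, a1R, a2L, a2R, .s2 x l r => chk D a1L a1R a2L x l && chk D a1L a1R x a2R r

/-- The master check of a block. -/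
def checkM (D : MBlock) : Bool :=
  checkGlobals D.base && checkSubs D.base && checkCorner D.base && checkT D &&
  D.planes.all (mpOK D) && chk D (0, 0) none1 (0, 0) nhalf D.tree

/-! ### The planes -/

lemma val_RR {s t ρ : NF} (hρ : val ρ < val t) :
    val (RR s t ρ) = (val s) ^ 2 / ((val t) ^ 2 - (val ρ) ^ 2) := by
  have hρ0 := val_nonneg ρ
  have ht2 : (val ρ) ^ 2 < (val t) ^ 2 := by nlinarith
  have e1 : val (nsub (nmul t t) (nmul ρ ρ)) = (val t) ^ 2 - (val ρ) ^ 2 := by
    rw [val_sub' (by rw [val_mul, val_mul]; nlinarith), val_mul, val_mul]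
    ring
  unfold RR
  rw [val_mul, val_mul, val_inv' (by rw [e1]; linarith), e1]
  rw [div_eq_mul_inv]
  ring

lemma log_RR {s t ρ : NF} (hs : 0 < val s) (hρ : val ρ < val t) :
    log (val (RR s t ρ)) = 2 * log (val s) - log ((val t) ^ 2 - (val ρ) ^ 2) := by
  have hρ0 := val_nonneg ρ
  have ht2 : 0 < (val t) ^ 2 - (val ρ) ^ 2 := by nlinarith
  rw [val_RR hρ, log_div (by positivity) ht2.ne', log_pow]
  norm_num

lemma RR_ge_one {s t ρ : NF} (hs : val t + 1 ≤ val s) (hρ : val ρ < val t) :
    1 ≤ val (RR s t ρ) := by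
  have hρ0 := val_nonneg ρ
  have ht2 : 0 < (val t) ^ 2 - (val ρ) ^ 2 := by nlinarith
  rw [val_RR hρ, le_div_iff₀ ht2]
  nlinarith [sq_nonneg (val ρ)]

lemma val_AR {t ρ : NF} (hρ : val ρ < val t) :
    val (AR t ρ) = (val t + val ρ) / (val t - val ρ) := by
  have e1 : val (nsub t ρ) = val t - val ρ := val_sub' hρ.le
  unfold AR
  rw [val_mul, val_add, val_inv' (by rw [e1]; linarith), e1, div_eq_mul_inv]

lemma AR_ge_one {t ρ : NF} (hρ : val ρ < val t) : 1 ≤ val (AR t ρ) := by
  rw [val_AR hρ, le_div_iff₀ (by linarith)]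
  have := val_nonneg ρ
  linarith

lemma Art_AR {t ρ : NF} (hρ : val ρ < val t) :
    Art (val ρ * (1 / val t)) = log (val (AR t ρ)) / 2 := by
  have hρ0 := val_nonneg ρ
  have ht : 0 < val t := by linarith
  have e1 : 1 + val ρ * (1 / val t) = (val t + val ρ) / val t := by
    field_simp
  have e2 : 1 - val ρ * (1 / val t) = (val t - val ρ) / val t := by
    field_simp
  unfold Art
  rw [e1, e2, val_AR hρ, log_div (by positivity) ht.ne', log_div (by linarith) ht.ne',
    log_div (by positivity) (by linarith)]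
  ring

/-- Soundness of the check of a plane at one end. -/
lemma endOK_sound {a b ρ T μ c k : NF} (h1 : 1 < val a) (h2 : val a ≤ val b) (hρ0 : 0 < val ρ)
    (hρ1 : val ρ ≤ 1) (h : endOK a b ρ T μ c k = true) :
    PValid (val ρ) (val μ) (-(val k * val T)) (val c * val T) := by
  have P : PData (val ρ) (val a) (val b) := ⟨hρ0, hρ1, h1, h2⟩
  have hb1 : 1 < val b := by linarith
  have hs : val (nadd a b) = val a + val b := val_add a b
  have hs0 : 0 < val (nadd a b) := by rw [hs]; linarith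
  have hsb : val b + 1 ≤ val (nadd a b) := by rw [hs]; linarith
  have hsa : val a + 1 ≤ val (nadd a b) := by rw [hs]; linarith
  have hone : val none1 = 1 := val_one
  have hρa : val ρ < val a := by linarith
  have hρb : val ρ < val b := by linarith
  have h1a : val none1 < val a := by rw [hone]; exact h1
  have h1b : val none1 < val b := by rw [hone]; exact hb1
  -- the logarithms
  have eX : log (val (RR (nadd a b) b ρ)) = NN (val ρ) (val a + val b) (val b) := by
    rw [log_RR hs0 hρb, hs]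
    rfl
  have eP : log (val (RR (nadd a b) a ρ)) = NN (val ρ) (val a + val b) (val a) := by
    rw [log_RR hs0 hρa, hs]
    rfl
  have eY : log (val (RR (nadd a b) b none1)) = DD (val a + val b) (val b) := by
    rw [log_RR hs0 h1b, hs, hone]
    unfold DD
    norm_num
  have eQ : log (val (RR (nadd a b) a none1)) = DD (val a + val b) (val a) := by
    rw [log_RR hs0 h1a, hs, hone]
    unfold DD
    norm_num
  have gX := RR_ge_one hsb hρb
  have gP := RR_ge_one hsa hρa
  have gY := RR_ge_one (ρ := none1) hsb h1b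
  have gQ := RR_ge_one (ρ := none1) hsa h1a
  have X0 : 0 ≤ NN (val ρ) (val a + val b) (val b) := by
    rw [← eX]
    exact log_nonneg gX
  have Q0 : 0 ≤ DD (val a + val b) (val a) := by
    rw [← eQ]
    exact log_nonneg gQ
  have Y0 : 0 < DD (val a + val b) (val b) := P.DDb
  have Xlo := logLoF_le' gX
  have Xhi := le_logHiF' gX
  have Plo := logLoF_le' gP
  have Ylo := logLoF_le' gY
  have Yhi := le_logHiF' gY
  have Qhi := le_logHiF' gQ
  rw [eX] at Xlo Xhi
  rw [eP] at Plo
  rw [eY] at Ylo Yhi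
  rw [eQ] at Qhi
  set X := NN (val ρ) (val a + val b) (val b) with hX
  set Y := DD (val a + val b) (val b) with hY
  set PP := NN (val ρ) (val a + val b) (val a) with hP
  set Q := DD (val a + val b) (val a) with hQ
  -- the artanh
  have hZa := Art_AR h1a
  have hZb := Art_AR h1b
  have hZa' := Art_AR hρa
  have hZb' := Art_AR hρb
  rw [hone, one_mul] at hZa hZb
  have ga := AR_ge_one h1a
  have gb := AR_ge_one h1b
  have ga' := AR_ge_one hρa
  have gb' := AR_ge_one hρb
  have Zal := logLoF_le' ga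
  have Zbl := logLoF_le' gb
  have Zah := le_logHiF' ga'
  have Zbh := le_logHiF' gb'
  unfold endOK at h
  simp only [Bool.and_eq_true] at h
  obtain ⟨⟨c1, c2⟩, c3⟩ := h
  have c1' := nle_sound c1
  have c2' := nle_sound c2
  have c3' := nle_sound c3
  simp only [val_add, val_mul, val_half, val_nnat] at c1' c2' c3'
  push_cast at c2' c3'
  have hμ0 := val_nonneg μ
  have hk0 := val_nonneg k
  have hT0 := val_nonneg T
  have hc0 := val_nonneg c
  have hμ : val μ ≤ pMu (val ρ) (val a) (val b) := by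
    unfold pMu
    rw [le_div_iff₀ Y0]
    have := mul_le_mul_of_nonneg_left Yhi hμ0
    linarith
  have hκ : -(val k * val T) ≤ pKap (val ρ) (val a) (val b) := by
    unfold pKap pMu
    have t1 : X * Q ≤ val (logHiF (RR (nadd a b) b ρ)) * val (logHiF (RR (nadd a b) a none1)) :=
      mul_le_mul Xhi Qhi Q0 (X0.trans Xhi)
    have hPT : 0 ≤ val (logLoF (RR (nadd a b) a ρ)) + 2 * (val k * val T) := by
      have := val_nonneg (logLoF (RR (nadd a b) a ρ))
      positivity
    have t2 : (val (logLoF (RR (nadd a b) a ρ)) + 2 * (val k * val T))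
          * val (logLoF (RR (nadd a b) b none1)) ≤ (PP + 2 * (val k * val T)) * Y :=
      mul_le_mul (by linarith) Ylo (val_nonneg _) (by linarith)
    have t3 : X / Y * Q ≤ PP + 2 * (val k * val T) := by
      rw [div_mul_eq_mul_div, div_le_iff₀ Y0]
      linarith
    linarith
  have hν : val c * val T ≤ pNu (val ρ) (val a) (val b) := by
    unfold pNu pMu
    set Z := Art (1 / val a) + Art (1 / val b) with hZ
    set Z' := val ρ * (Art (val ρ * (1 / val a)) + Art (val ρ * (1 / val b))) with hZ'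
    have hZlo : (val (logLoF (AR a none1)) + val (logLoF (AR b none1))) * (1 / 2) ≤ Z := by
      rw [hZ, hZa, hZb]
      linarith
    have hZhi : Z' ≤ val ρ * (val (logHiF (AR a ρ)) + val (logHiF (AR b ρ))) * (1 / 2) := by
      rw [hZ', hZa', hZb']
      have : log (val (AR a ρ)) / 2 + log (val (AR b ρ)) / 2
          ≤ (val (logHiF (AR a ρ)) + val (logHiF (AR b ρ))) * (1 / 2) := by linarith
      have := mul_le_mul_of_nonneg_left this hρ0.le
      linarith
    have hZ0 : 0 ≤ (val (logLoF (AR a none1)) + val (logLoF (AR b none1))) * (1 / 2) := by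
      have := val_nonneg (logLoF (AR a none1))
      have := val_nonneg (logLoF (AR b none1))
      positivity
    have hZ'0 : 0 ≤ Z' := by
      rw [hZ', hZa', hZb']
      have := log_nonneg ga'
      have := log_nonneg gb'
      positivity
    have t1 : (2 * (val c * val T) + Z') * Y
        ≤ (2 * (val c * val T) + val ρ * (val (logHiF (AR a ρ)) + val (logHiF (AR b ρ))) * (1 / 2))
          * val (logHiF (RR (nadd a b) b none1)) :=
      mul_le_mul (by linarith) Yhi Y0.le (by
        have := mul_nonneg hc0 hT0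
        linarith)
    have t2 : val (logLoF (RR (nadd a b) b ρ))
          * ((val (logLoF (AR a none1)) + val (logLoF (AR b none1))) * (1 / 2)) ≤ X * Z :=
      mul_le_mul Xlo hZlo hZ0 X0
    have t3 : 2 * (val c * val T) + Z' ≤ X / Y * Z := by
      rw [div_mul_eq_mul_div, le_div_iff₀ Y0]
      linarith
    linarith
  exact pvalid_of_data P hμ0 hμ hκ (mul_nonneg hc0 hT0) hν

end Vale.Agent.P322
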