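import Vale.Agent.P322.PEnv
import Vale.Agent.P322.W.Check5

/-!
The induction on the dimension for the envelope `H(ε) LK κ`, where at each pair of means one may
use either a plane of the form `PlaneClose` or the earlier closure `CloseAt`.
-/

namespace Vale.Agent.P322

open Real

/-- The envelope with parameter `κ` at the noise `ε`. -/
noncomputable def EE (ε κ a : ℝ) : ℝ := binEntropy ε * LK κ a

/-- The closure at a pair of means. -/
def Close2 (ε κ a₁ a₂ : ℝ) : Prop :=
  CloseAt ε κ a₁ a₂ ∨ PlaneClose (1 - 2 * ε) (EE ε κ) a₁ a₂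

lemma EE_one_sub (ε κ a : ℝ) : EE ε κ (1 - a) = EE ε κ a := by
  unfold EE
  rw [LK_one_sub]

lemma Close2.swap {ε κ a₁ a₂ : ℝ} (h : Close2 ε κ a₁ a₂) : Close2 ε κ a₂ a₁ := by
  rcases h with h | h
  · exact Or.inl h.swap
  · exact Or.inr h.swap

lemma Close2.reflect {ε κ a₁ a₂ : ℝ} (h : Close2 ε κ a₁ a₂) : Close2 ε κ (1 - a₂) (1 - a₁) := by
  rcases h with h | h
  · exact Or.inl h.reflect
  · exact Or.inr (h.reflect (EE_one_sub ε κ))

/-- The reduction to the normal form of a pair of means. -/
theorem close2_all {ε κ : ℝ} (h0 : 0 < ε) (h1 : ε ≤ 1 / 2)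
    (hm : ∀ a₁ a₂, 0 < a₂ → a₂ < a₁ → a₁ < 1 → a₁ + a₂ ≤ 1 → Close2 ε κ a₁ a₂) :
    ∀ a₁ a₂, 0 < a₁ → a₁ < 1 → 0 < a₂ → a₂ < 1 → Close2 ε κ a₁ a₂ := by
  have main : ∀ x y : ℝ, 0 < x → x < 1 → 0 < y → y < 1 → y < x → Close2 ε κ x y := by
    intro x y hx hx' hy hy' hxy
    rcases le_or_gt (x + y) 1 with h | h
    · exact hm x y hy hxy hx' h
    · have := hm (1 - y) (1 - x) (by linarith) (by linarith) (by linarith) (by linarith)
      have h2 := this.reflect
      rwa [sub_sub_cancel, sub_sub_cancel] at h2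
  intro a₁ a₂ h10 h11 h20 h21
  rcases lt_trichotomy a₁ a₂ with h | h | h
  · exact (main a₂ a₁ h20 h21 h10 h11 h).swap
  · subst h
    -- the diagonal
    left
    right
    rw [show (a₁ + a₁) / 2 = a₁ by ring]
    have hJ : JJ a₁ a₁ = 0 := by
      unfold JJ
      rw [show (a₁ + a₁) / 2 = a₁ by ring]
      ring
    rw [hJ]
    apply le_of_eq
    ring
  · exact main a₁ a₂ h10 h11 h20 h21 h

/-- The induction on the dimension. -/
theorem envelope_mix {ε κ : ℝ} (h0 : 0 < ε) (h1 : ε ≤ 1 / 2)
    (hbase : ∀ u, 0 < u → u < 1 → EE ε κ u ≤ binEntropy u)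
    (hclose : ∀ a₁ a₂, 0 < a₁ → a₁ < 1 → 0 < a₂ → a₂ < 1 → Close2 ε κ a₁ a₂) {n : ℕ}
    (g : Cube n → ℝ) (hg : ∀ x, 0 < g x ∧ g x < 1) :
    EE ε κ (avg g) ≤ avg (fun y => binEntropy (noise ε g y)) := by
  have hε1 : ε ≤ 1 := by linarith
  have hH : 0 ≤ binEntropy ε := binEntropy_nonneg h0.le hε1
  induction n with
  | zero =>
    rw [avg_zero_dim _ default, avg_zero_dim _ default, noise_zero_dim]
    exact hbase _ (hg _).1 (hg _).2
  | succ n ih =>
    set gp : Cube n → ℝ := fun x => g (Fin.cons true x) with hgp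
    set gm : Cube n → ℝ := fun x => g (Fin.cons false x) with hgm
    have hgp01 : ∀ x, 0 < gp x ∧ gp x < 1 := fun x => hg _
    have hgm01 : ∀ x, 0 < gm x ∧ gm x < 1 := fun x => hg _
    set u := noise ε gp with hu
    set w := noise ε gm with hw
    have hu01 : ∀ y, 0 < u y ∧ u y < 1 := noise_strict h0.le hε1 gp hgp01
    have hw01 : ∀ y, 0 < w y ∧ w y < 1 := noise_strict h0.le hε1 gm hgm01
    have hu02 : ∀ y, u y ∈ Set.Icc (0 : ℝ) 1 := fun y => ⟨(hu01 y).1.le, (hu01 y).2.le⟩
    have hw02 : ∀ y, w y ∈ Set.Icc (0 : ℝ) 1 := fun y => ⟨(hw01 y).1.le, (hw01 y).2.le⟩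
    have hau : avg u = avg gp := avg_noise gp
    have haw : avg w = avg gm := avg_noise gm
    have hag : avg g = (avg gp + avg gm) / 2 := avg_succ g
    have ha1 := avg_strict gp hgp01
    have ha2 := avg_strict gm hgm01
    have hES : avg (fun y => binEntropy (noise ε g y)) =
        avg (fun y => SS ε (u y) (w y)) / 2 := by
      rw [avg_succ]
      simp only [noise_cons_true, noise_cons_false]
      unfold SS
      rw [avg_add]
    rw [hES, hag]
    have hU := ih gp hgp01
    have hW := ih gm hgm01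
    set U := avg (fun y => binEntropy (u y)) with hUdef
    set W := avg (fun y => binEntropy (w y)) with hWdef
    have hU' : EE ε κ (avg gp) ≤ U := hU
    have hW' : EE ε κ (avg gm) ≤ W := hW
    rcases hclose _ _ ha1.1 ha1.2 ha2.1 ha2.2 with hc | hc
    · rcases hc with ⟨μ, K, hP, hμ, hK, hc⟩ | hc
      · -- a plane of the earlier form
        have hT : |avg gp - avg gm| ≤ avg (fun y => |u y - w y|) := by
          rw [← hau, ← haw]
          exact avg_abs_ge u w
        have hp : (1 - μ) * (U + W) + K * avg (fun y => |u y - w y|)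
            ≤ avg (fun y => SS ε (u y) (w y)) := by
          rw [hUdef, hWdef, ← avg_add, ← avg_const_mul, ← avg_const_mul, ← avg_add]
          apply avg_mono
          intro y
          exact hP _ _ (hu02 y) (hw02 y)
        have t1 := mul_le_mul_of_nonneg_left hT hK
        have t2 : (1 - μ) * (binEntropy ε * (LK κ (avg gp) + LK κ (avg gm))) ≤ (1 - μ) * (U + W) := by
          apply mul_le_mul_of_nonneg_left _ (by linarith)
          rw [mul_add]
          unfold EE at hU' hW'
          linarith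
        unfold EE
        linarith
      · -- the first method
        have hp : U + W + 8 * (ε * (1 - ε)) * avg (fun y => JJ (u y) (w y))
            ≤ avg (fun y => SS ε (u y) (w y)) := by
          rw [hUdef, hWdef, ← avg_add, ← avg_const_mul, ← avg_add]
          apply avg_mono
          intro y
          exact SS_ge_JJ h0.le h1 (hu02 y) (hw02 y)
        have hJ := avg_JJ_ge hu02 hw02
        rw [hau, haw] at hJ
        have hA : 0 ≤ 8 * (ε * (1 - ε)) := by
          have : 0 ≤ 1 - ε := by linarith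
          positivity
        have t1 := mul_le_mul_of_nonneg_left hJ hA
        have t2 : binEntropy ε * (LK κ (avg gp) + LK κ (avg gm)) ≤ U + W := by
          rw [mul_add]
          unfold EE at hU' hW'
          linarith
        unfold EE
        linarith
    · obtain ⟨c, κ', ν, μ, hμ, hP, hC⟩ := hc
      have hA := avg_mono (F := fun y => c + κ' * ((u y + w y) / 2) + ν * (u y - w y)
          + μ * ((binEntropy (u y) + binEntropy (w y)) / 2))
          (G := fun y => SS ε (u y) (w y) / 2)
          (fun y => by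
            have e := SS_eq_Psi (1 - 2 * ε) (u y) (w y)
            rw [show (1 - (1 - 2 * ε)) / 2 = ε by ring] at e
            have := hP (u y) (w y) (hu01 y).1 (hu01 y).2 (hw01 y).1 (hw01 y).2
            rw [e]
            linarith)
      rw [avg_plane, hau, haw] at hA
      have e2 : avg (fun y => SS ε (u y) (w y) / 2) = avg (fun y => SS ε (u y) (w y)) / 2 := by
        have : (fun y => SS ε (u y) (w y) / 2) = fun y => (1 / 2) * SS ε (u y) (w y) := by
          funext y
          ring
        rw [this, avg_const_mul]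
        ring
      rw [e2] at hA
      have t : μ * ((EE ε κ (avg gp) + EE ε κ (avg gm)) / 2) ≤ μ * ((U + W) / 2) :=
        mul_le_mul_of_nonneg_left (by linarith) hμ
      linarith

/-- The envelope is continuous. -/
lemma EE_continuous (ε κ : ℝ) : Continuous (EE ε κ) := by
  unfold EE LK
  have := binEntropy_continuous
  fun_prop

/-- From the closure at all pairs of means to the inequality. -/
theorem ck_of_close2 {ε κ : ℝ} (h0 : 0 < ε) (h1 : ε ≤ 1 / 2) (hκ : 0 ≤ κ)
    (hξ : 0 ≤ 1 - κ * log 2)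
    (hsize : binEntropy ε * (κ + 2 * (1 - κ * log 2)) ≤ 1)
    (hm : ∀ a₁ a₂, 0 < a₂ → a₂ < a₁ → a₁ < 1 → a₁ + a₂ ≤ 1 → Close2 ε κ a₁ a₂) {n : ℕ}
    (f : Cube n → Bool) : mutualInfo ε f ≤ 1 - h2 ε := by
  have hε1 : ε ≤ 1 := by linarith
  refine mutual_of_envelope h0 h1 hsize hξ ?_ f
  intro m g hg
  have := envelope_closed (E := EE ε κ) (EE_continuous ε κ) h0.le hε1
    (fun g' hg' => envelope_mix h0 h1
      (fun u hu0 hu1 => base_LK h0.le hε1 hκ hξ ⟨hu0.le, hu1.le⟩)
      (close2_all h0 h1 hm) g' hg') g hg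
  exact this

end Vale.Agent.P322
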