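import Vale.Agent.P322.M.Data.M00
import Vale.Agent.P322.M.Data.M01
import Vale.Agent.P322.M.Data.M02
import Vale.Agent.P322.M.Data.M03
import Vale.Agent.P322.W.Final

/-!
The exact inequality on a wide range of noise levels, from the certified blocks with exact planes.
-/

namespace Vale.Agent.P322

open Real

/-- The exact inequality from the checked blocks. -/
theorem exact_M {ε : ℝ} (h0 : 0 ≤ ε) (h1 : ε ≤ 1449 / 10000) {n : ℕ} (f : Cube n → Bool) :
    mutualInfo ε f ≤ 1 - h2 ε := by
  by_cases hs : ε ≤ 45 / 1000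
  · exact exact_wide h0 hs f
  rw [not_le] at hs
  by_cases b00 : ε ≤ 720 / 10000
  · refine mblock_sound blockM00_ok (ε := ε) ⟨?_, ?_⟩ f
    · show val (450, 9999) ≤ ε
      rw [val_pair]
      norm_num at hs ⊢
      linarith
    · show ε ≤ val (720, 9999)
      rw [val_pair]
      norm_num at b00 ⊢
      linarith
  rw [not_le] at b00
  by_cases b01 : ε ≤ 1008 / 10000
  · refine mblock_sound blockM01_ok (ε := ε) ⟨?_, ?_⟩ f
    · show val (720, 9999) ≤ ε
      rw [val_pair]
      norm_num at b00 ⊢
      linarith
    · show ε ≤ val (1008, 9999)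
      rw [val_pair]
      norm_num at b01 ⊢
      linarith
  rw [not_le] at b01
  by_cases b02 : ε ≤ 1260 / 10000
  · refine mblock_sound blockM02_ok (ε := ε) ⟨?_, ?_⟩ f
    · show val (1008, 9999) ≤ ε
      rw [val_pair]
      norm_num at b01 ⊢
      linarith
    · show ε ≤ val (1260, 9999)
      rw [val_pair]
      norm_num at b02 ⊢
      linarith
  rw [not_le] at b02
  by_cases b03 : ε ≤ 1449 / 10000
  · refine mblock_sound blockM03_ok (ε := ε) ⟨?_, ?_⟩ f
    · show val (1260, 9999) ≤ ε
      rw [val_pair]
      norm_num at b02 ⊢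
      linarith
    · show ε ≤ val (1449, 9999)
      rw [val_pair]
      norm_num at b03 ⊢
      linarith
  rw [not_le] at b03
  exact absurd h1 (not_le.mpr (by norm_num at b03 ⊢; linarith))

end Vale.Agent.P322
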