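import Vale.Agent.P322.M.Env

/-!
Planes at an intermediate noise from the exact planes at the two ends of an interval of noises,
and the closure at a pair of means.
-/

namespace Vale.Agent.P322

open Real

/-- A valid plane below `Ψ`. -/
def PValid (ρ μ κ ν : ℝ) : Prop :=
  ∀ u v : ℝ, 0 < u → u < 1 → 0 < v → v < 1 →
    κ * ((u + v) / 2) + ν * (u - v) + μ * ((binEntropy u + binEntropy v) / 2) ≤ Psi ρ u v

/-- Lowered coefficients of an exact plane. -/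
lemma pvalid_of_data {ρ a b μ κ ν : ℝ} (P : PData ρ a b) (hμ0 : 0 ≤ μ) (hμ : μ ≤ pMu ρ a b)
    (hκ : κ ≤ pKap ρ a b) (hν0 : 0 ≤ ν) (hν : ν ≤ pNu ρ a b) : PValid ρ μ κ ν := by
  intro u v hu0 hu1 hv0 hv1
  have hhu : 0 ≤ binEntropy u := binEntropy_nonneg hu0.le hu1.le
  have hhv : 0 ≤ binEntropy v := binEntropy_nonneg hv0.le hv1.le
  have t1 : κ * ((u + v) / 2) ≤ pKap ρ a b * ((u + v) / 2) :=
    mul_le_mul_of_nonneg_right hκ (by linarith)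
  have t2 : μ * ((binEntropy u + binEntropy v) / 2)
      ≤ pMu ρ a b * ((binEntropy u + binEntropy v) / 2) :=
    mul_le_mul_of_nonneg_right hμ (by linarith)
  rcases le_total v u with h | h
  · have hp := P.plane hu0 hu1 hv0 hv1
    have t3 : ν * (u - v) ≤ pNu ρ a b * (u - v) := mul_le_mul_of_nonneg_right hν (by linarith)
    have e : pMu ρ a b * (binEntropy u + binEntropy v) / 2
        = pMu ρ a b * ((binEntropy u + binEntropy v) / 2) := by ring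
    rw [e] at hp
    linarith
  · have hp := P.plane hv0 hv1 hu0 hu1
    rw [Psi_comm] at hp
    have t3 : ν * (u - v) ≤ 0 := mul_nonpos_of_nonneg_of_nonpos hν0 (by linarith)
    have t4 : 0 ≤ pNu ρ a b * (v - u) := mul_nonneg (hν0.trans hν) (by linarith)
    have e : pMu ρ a b * (binEntropy v + binEntropy u) / 2
        = pMu ρ a b * ((binEntropy u + binEntropy v) / 2) := by ring
    rw [e, show (v + u) / 2 = (u + v) / 2 by ring] at hp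
    linarith

/-- The noised value lies in the unit interval. -/
lemma noised_mem {ρ u v : ℝ} (h0 : -1 ≤ ρ) (h1 : ρ ≤ 1) (hu0 : 0 ≤ u) (hu1 : u ≤ 1) (hv0 : 0 ≤ v)
    (hv1 : v ≤ 1) : (u + v) / 2 + ρ * (u - v) / 2 ∈ Set.Icc (0 : ℝ) 1 := by
  have e : (u + v) / 2 + ρ * (u - v) / 2 = ((1 + ρ) / 2) * u + ((1 - ρ) / 2) * v := by ring
  rw [e]
  have ha : 0 ≤ (1 + ρ) / 2 := by linarith
  have hb : 0 ≤ (1 - ρ) / 2 := by linarith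
  have t1 := mul_nonneg ha hu0
  have t2 := mul_nonneg hb hv0
  have t3 : (1 + ρ) / 2 * u ≤ (1 + ρ) / 2 * 1 := mul_le_mul_of_nonneg_left hu1 ha
  have t4 : (1 - ρ) / 2 * v ≤ (1 - ρ) / 2 * 1 := mul_le_mul_of_nonneg_left hv1 hb
  exact ⟨by linarith, by linarith⟩

lemma noised_mem' {ρ u v : ℝ} (h0 : -1 ≤ ρ) (h1 : ρ ≤ 1) (hu0 : 0 ≤ u) (hu1 : u ≤ 1) (hv0 : 0 ≤ v)
    (hv1 : v ≤ 1) : (u + v) / 2 - ρ * (u - v) / 2 ∈ Set.Icc (0 : ℝ) 1 := by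
  have := noised_mem (ρ := -ρ) (by linarith) (by linarith) hu0 hu1 hv0 hv1
  rwa [show (u + v) / 2 + -ρ * (u - v) / 2 = (u + v) / 2 - ρ * (u - v) / 2 by ring] at this

/-- The function `Ψ` is concave in the noise parameter. -/
lemma Psi_concave {ρ₁ ρ₂ x u v : ℝ} (h10 : -1 ≤ ρ₁) (h11 : ρ₁ ≤ 1) (h20 : -1 ≤ ρ₂) (h21 : ρ₂ ≤ 1)
    (hx0 : 0 ≤ x) (hx1 : x ≤ 1) (hu0 : 0 ≤ u) (hu1 : u ≤ 1) (hv0 : 0 ≤ v) (hv1 : v ≤ 1) :
    (1 - x) * Psi ρ₁ u v + x * Psi ρ₂ u v ≤ Psi ((1 - x) * ρ₁ + x * ρ₂) u v := by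
  have hconc := Real.strictConcave_binEntropy.concaveOn
  have hx2 : 0 ≤ 1 - x := by linarith
  have c1 := hconc.2 (noised_mem h10 h11 hu0 hu1 hv0 hv1) (noised_mem h20 h21 hu0 hu1 hv0 hv1)
    hx2 hx0 (by ring)
  have c2 := hconc.2 (noised_mem' h10 h11 hu0 hu1 hv0 hv1) (noised_mem' h20 h21 hu0 hu1 hv0 hv1)
    hx2 hx0 (by ring)
  simp only [smul_eq_mul] at c1 c2
  rw [show (1 - x) * ((u + v) / 2 + ρ₁ * (u - v) / 2) + x * ((u + v) / 2 + ρ₂ * (u - v) / 2)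
      = (u + v) / 2 + ((1 - x) * ρ₁ + x * ρ₂) * (u - v) / 2 by ring] at c1
  rw [show (1 - x) * ((u + v) / 2 - ρ₁ * (u - v) / 2) + x * ((u + v) / 2 - ρ₂ * (u - v) / 2)
      = (u + v) / 2 - ((1 - x) * ρ₁ + x * ρ₂) * (u - v) / 2 by ring] at c2
  unfold Psi
  linarith

/-- A convex combination of planes at two noises is a plane at the intermediate noise. -/
lemma pvalid_mix {ρ₁ ρ₂ x μ₁ κ₁ ν₁ μ₂ κ₂ ν₂ : ℝ} (h10 : -1 ≤ ρ₁) (h11 : ρ₁ ≤ 1) (h20 : -1 ≤ ρ₂)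
    (h21 : ρ₂ ≤ 1) (hx0 : 0 ≤ x) (hx1 : x ≤ 1) (V₁ : PValid ρ₁ μ₁ κ₁ ν₁) (V₂ : PValid ρ₂ μ₂ κ₂ ν₂) :
    PValid ((1 - x) * ρ₁ + x * ρ₂) ((1 - x) * μ₁ + x * μ₂) ((1 - x) * κ₁ + x * κ₂)
      ((1 - x) * ν₁ + x * ν₂) := by
  intro u v hu0 hu1 hv0 hv1
  have hc := Psi_concave h10 h11 h20 h21 hx0 hx1 hu0.le hu1.le hv0.le hv1.le
  have t1 := V₁ u v hu0 hu1 hv0 hv1
  have t2 := V₂ u v hu0 hu1 hv0 hv1
  have s1 := mul_le_mul_of_nonneg_left t1 (show 0 ≤ 1 - x by linarith)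
  have s2 := mul_le_mul_of_nonneg_left t2 hx0
  nlinarith

/-- The closure at a pair of means, on an interval of noises, from the two ends. -/
theorem close_of_ends {ε κ elo ehi T₁ T₂ μ₁ μ₂ c₁ c₂ b₁ b₂ a₁ a₂ : ℝ}
    (hlo : elo ≤ ε) (hhi : ε ≤ ehi) (hlt : elo < ehi) (helo : 0 ≤ elo) (hehi : ehi ≤ 1 / 2)
    (V₁ : PValid (1 - 2 * ehi) μ₁ (-(b₁ * T₁)) (c₁ * T₁))
    (V₂ : PValid (1 - 2 * elo) μ₂ (-(b₂ * T₂)) (c₂ * T₂))
    (hμ0 : 0 ≤ μ₁) (hμ12 : μ₁ ≤ μ₂) (hμ1 : μ₂ ≤ 1) (hT12 : T₂ ≤ T₁) (hT20 : 0 ≤ T₂)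
    (hT : binEntropy ε ≤ ((ε - elo) * T₁ + (ehi - ε) * T₂) / (ehi - elo))
    (ha₁ : a₁ ∈ Set.Icc (0 : ℝ) 1) (ha₂ : a₂ ∈ Set.Icc (0 : ℝ) 1) (hκ : 0 ≤ κ)
    (hξ : 0 ≤ 1 - κ * log 2)
    (G₁ : 0 ≤ μ₁ * ((LK κ a₁ + LK κ a₂) / 2) - LK κ ((a₁ + a₂) / 2) + c₁ * (a₁ - a₂)
      - b₁ * ((a₁ + a₂) / 2))
    (G₂ : 0 ≤ μ₂ * ((LK κ a₁ + LK κ a₂) / 2) - LK κ ((a₁ + a₂) / 2) + c₂ * (a₁ - a₂)
      - b₂ * ((a₁ + a₂) / 2)) :
    PlaneClose (1 - 2 * ε) (EE ε κ) a₁ a₂ := by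
  have hD : 0 < ehi - elo := by linarith
  obtain ⟨x, hx⟩ : ∃ x, x = (ehi - ε) / (ehi - elo) := ⟨_, rfl⟩
  have hx0 : 0 ≤ x := by
    rw [hx]
    exact div_nonneg (by linarith) hD.le
  have hx1 : x ≤ 1 := by
    rw [hx, div_le_one hD]
    linarith
  have hx2 : 0 ≤ 1 - x := by linarith
  have hxm : x * (ehi - elo) = ehi - ε := by
    rw [hx]
    field_simp
  have hρ : (1 - x) * (1 - 2 * ehi) + x * (1 - 2 * elo) = 1 - 2 * ε := by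
    have : (1 - x) * (1 - 2 * ehi) + x * (1 - 2 * elo) = 1 - 2 * ehi + 2 * (x * (ehi - elo)) := by ring
    rw [this, hxm]
    ring
  have hV := pvalid_mix (ρ₁ := 1 - 2 * ehi) (ρ₂ := 1 - 2 * elo) (x := x) (by linarith) (by linarith)
    (by linarith) (by linarith) hx0 hx1 V₁ V₂
  rw [hρ] at hV
  have hTx : binEntropy ε ≤ (1 - x) * T₁ + x * T₂ := by
    have e : ((ε - elo) * T₁ + (ehi - ε) * T₂) / (ehi - elo) = (1 - x) * T₁ + x * T₂ := by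
      rw [hx]
      field_simp
      ring
    rwa [e] at hT
  set Lb := (LK κ a₁ + LK κ a₂) / 2 with hLb
  set LA := LK κ ((a₁ + a₂) / 2) with hLA
  have hL10 := LK_nonneg hκ hξ ha₁.1 ha₁.2
  have hL20 := LK_nonneg hκ hξ ha₂.1 ha₂.2
  have hLb0 : 0 ≤ Lb := by rw [hLb]; linarith
  have hmid := LK_mid κ a₁ a₂
  have hJ := JJ_nonneg ha₁ ha₂
  have hLbA : Lb ≤ LA := by
    have t1 : 0 ≤ κ * JJ a₁ a₂ := mul_nonneg hκ hJ
    have t2 : 0 ≤ (1 - κ * log 2) * (a₁ - a₂) ^ 2 := mul_nonneg hξ (sq_nonneg _)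
    rw [hLb, hLA, hmid]
    linarith
  have hμ₂0 : 0 ≤ μ₂ := hμ0.trans hμ12
  have hμ₁1 : μ₁ ≤ 1 := hμ12.trans hμ1
  refine ⟨0, (1 - x) * -(b₁ * T₁) + x * -(b₂ * T₂), (1 - x) * (c₁ * T₁) + x * (c₂ * T₂),
    (1 - x) * μ₁ + x * μ₂, by positivity, ?_, ?_⟩
  · intro u v hu0 hu1 hv0 hv1
    have := hV u v hu0 hu1 hv0 hv1
    linarith
  · have hT₁0 : 0 ≤ T₁ := hT20.trans hT12
    have s1 := mul_nonneg (mul_nonneg hx2 hT₁0) G₁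
    have s2 := mul_nonneg (mul_nonneg hx0 hT20) G₂
    -- the quadratic term
    have hq : 0 ≤ x * (1 - x) * (T₁ - T₂) * (μ₂ - μ₁) * Lb := by
      have h1 : 0 ≤ T₁ - T₂ := by linarith
      have h2 : 0 ≤ μ₂ - μ₁ := by linarith
      positivity
    set T := (1 - x) * T₁ + x * T₂ with hTdef
    set μ := (1 - x) * μ₁ + x * μ₂ with hμdef
    have hμle : μ ≤ 1 := by
      rw [hμdef]
      nlinarith
    have hneg : μ * Lb - LA ≤ 0 := by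
      have : μ * Lb ≤ 1 * Lb := mul_le_mul_of_nonneg_right hμle hLb0
      linarith
    have hcomp := mul_le_mul_of_nonpos_right hTx hneg
    have key : 0 ≤ T * (μ * Lb - LA) + ((1 - x) * (c₁ * T₁) + x * (c₂ * T₂)) * (a₁ - a₂)
        + ((1 - x) * -(b₁ * T₁) + x * -(b₂ * T₂)) * ((a₁ + a₂) / 2) := by
      have e : T * (μ * Lb - LA) + ((1 - x) * (c₁ * T₁) + x * (c₂ * T₂)) * (a₁ - a₂)
          + ((1 - x) * -(b₁ * T₁) + x * -(b₂ * T₂)) * ((a₁ + a₂) / 2)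
          = (1 - x) * T₁ * (μ₁ * Lb - LA + c₁ * (a₁ - a₂) - b₁ * ((a₁ + a₂) / 2))
            + x * T₂ * (μ₂ * Lb - LA + c₂ * (a₁ - a₂) - b₂ * ((a₁ + a₂) / 2))
            + x * (1 - x) * (T₁ - T₂) * (μ₂ - μ₁) * Lb := by
        rw [hTdef, hμdef]
        ring
      rw [e]
      linarith
    unfold EE
    have e3 : μ * ((binEntropy ε * LK κ a₁ + binEntropy ε * LK κ a₂) / 2) = binEntropy ε * (μ * Lb) := by
      rw [hLb]
      ring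
    rw [e3]
    have e4 : binEntropy ε * (μ * Lb - LA) = binEntropy ε * (μ * Lb) - binEntropy ε * LA := by ring
    rw [e4] at hcomp
    linarith

end Vale.Agent.P322
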