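import Vale.Agent.P322.M.Check

/-!
Soundness of the reflective checks.
-/

namespace Vale.Agent.P322

open Real

/-- The concave function attached to a plane and a cell. -/
noncomputable def fcR (κ Ξ μ c k m₀ m₁ a₁ a₂ : ℝ) : ℝ :=
  c * (a₁ - a₂) - k * ((a₁ + a₂) / 2) - μ * (κ * JJ a₁ a₂ + Ξ * (a₁ - a₂) ^ 2)
    - (1 - μ) * (m₀ + m₁ * ((a₁ + a₂) / 2))

lemma fcR_mix {κ Ξ μ c k m₀ m₁ t u₁ w₁ u₂ w₂ : ℝ} (hκ : 0 ≤ κ) (hΞ : 0 ≤ Ξ) (hμ : 0 ≤ μ)
    (ht0 : 0 ≤ t) (ht1 : t ≤ 1) (hu₁ : u₁ ∈ Set.Icc (0 : ℝ) 1) (hw₁ : w₁ ∈ Set.Icc (0 : ℝ) 1)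
    (hu₂ : u₂ ∈ Set.Icc (0 : ℝ) 1) (hw₂ : w₂ ∈ Set.Icc (0 : ℝ) 1) :
    t * fcR κ Ξ μ c k m₀ m₁ u₁ w₁ + (1 - t) * fcR κ Ξ μ c k m₀ m₁ u₂ w₂
      ≤ fcR κ Ξ μ c k m₀ m₁ (t * u₁ + (1 - t) * u₂) (t * w₁ + (1 - t) * w₂) := by
  have hJ := JJ_two_point ht0 ht1 hu₁ hw₁ hu₂ hw₂
  have ht2 : 0 ≤ 1 - t := by linarith
  have hsq : (t * u₁ + (1 - t) * u₂ - (t * w₁ + (1 - t) * w₂)) ^ 2
      ≤ t * (u₁ - w₁) ^ 2 + (1 - t) * (u₂ - w₂) ^ 2 := by
    have : t * (u₁ - w₁) ^ 2 + (1 - t) * (u₂ - w₂) ^ 2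
        - (t * u₁ + (1 - t) * u₂ - (t * w₁ + (1 - t) * w₂)) ^ 2
        = t * (1 - t) * ((u₁ - w₁) - (u₂ - w₂)) ^ 2 := by ring
    have h3 : 0 ≤ t * (1 - t) * ((u₁ - w₁) - (u₂ - w₂)) ^ 2 := by positivity
    linarith
  have t1 := mul_le_mul_of_nonneg_left hJ (mul_nonneg hμ hκ)
  have t2 := mul_le_mul_of_nonneg_left hsq (mul_nonneg hμ hΞ)
  unfold fcR
  nlinarith

/-- The value at a point of a rectangle from the four vertices. -/
lemma fcR_rect {κ Ξ μ c k m₀ m₁ a1L a1R a2L a2R a₁ a₂ : ℝ} (hκ : 0 ≤ κ) (hΞ : 0 ≤ Ξ) (hμ : 0 ≤ μ)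
    (h1L : a1L < a₁) (h1R : a₁ ≤ a1R) (h2L : a2L < a₂) (h2R : a₂ ≤ a2R)
    (m1L : a1L ∈ Set.Icc (0 : ℝ) 1) (m1R : a1R ∈ Set.Icc (0 : ℝ) 1)
    (m2L : a2L ∈ Set.Icc (0 : ℝ) 1) (m2R : a2R ∈ Set.Icc (0 : ℝ) 1)
    (f1 : 0 ≤ fcR κ Ξ μ c k m₀ m₁ a1L a2L) (f2 : 0 ≤ fcR κ Ξ μ c k m₀ m₁ a1L a2R)
    (f3 : 0 ≤ fcR κ Ξ μ c k m₀ m₁ a1R a2L) (f4 : 0 ≤ fcR κ Ξ μ c k m₀ m₁ a1R a2R) :
    0 ≤ fcR κ Ξ μ c k m₀ m₁ a₁ a₂ := by
  have hD1 : 0 < a1R - a1L := by linarith
  have hD2 : 0 < a2R - a2L := by linarith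
  obtain ⟨t, ht⟩ : ∃ t, t = (a1R - a₁) / (a1R - a1L) := ⟨_, rfl⟩
  obtain ⟨s, hs⟩ : ∃ s, s = (a2R - a₂) / (a2R - a2L) := ⟨_, rfl⟩
  have ht0 : 0 ≤ t := by
    rw [ht]
    exact div_nonneg (by linarith) hD1.le
  have ht1 : t ≤ 1 := by
    rw [ht, div_le_one hD1]
    linarith
  have hs0 : 0 ≤ s := by
    rw [hs]
    exact div_nonneg (by linarith) hD2.le
  have hs1 : s ≤ 1 := by
    rw [hs, div_le_one hD2]
    linarith
  have e1 : t * a1L + (1 - t) * a1R = a₁ := by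
    rw [ht]
    field_simp
    ring
  have e2 : s * a2L + (1 - s) * a2R = a₂ := by
    rw [hs]
    field_simp
    ring
  have ht2 : 0 ≤ 1 - t := by linarith
  have hs2 : 0 ≤ 1 - s := by linarith
  have g1 := fcR_mix (κ := κ) (Ξ := Ξ) (μ := μ) (c := c) (k := k) (m₀ := m₀) (m₁ := m₁)
    hκ hΞ hμ ht0 ht1 m1L m2L m1R m2L
  have g2 := fcR_mix (κ := κ) (Ξ := Ξ) (μ := μ) (c := c) (k := k) (m₀ := m₀) (m₁ := m₁)
    hκ hΞ hμ ht0 ht1 m1L m2R m1R m2R
  rw [e1, show t * a2L + (1 - t) * a2L = a2L by ring] at g1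
  rw [e1, show t * a2R + (1 - t) * a2R = a2R by ring] at g2
  have ma : a₁ ∈ Set.Icc (0 : ℝ) 1 := ⟨by linarith [m1L.1], by linarith [m1R.2]⟩
  have g3 := fcR_mix (κ := κ) (Ξ := Ξ) (μ := μ) (c := c) (k := k) (m₀ := m₀) (m₁ := m₁)
    hκ hΞ hμ hs0 hs1 ma m2L ma m2R
  rw [e2, show s * a₁ + (1 - s) * a₁ = a₁ by ring] at g3
  have p1 : 0 ≤ fcR κ Ξ μ c k m₀ m₁ a₁ a2L := by
    have := mul_nonneg ht0 f1
    have := mul_nonneg ht2 f3
    linarith
  have p2 : 0 ≤ fcR κ Ξ μ c k m₀ m₁ a₁ a2R := by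
    have := mul_nonneg ht0 f2
    have := mul_nonneg ht2 f4
    linarith
  have := mul_nonneg hs0 p1
  have := mul_nonneg hs2 p2
  linarith

/-- From the concave function to the form used by the closure. -/
lemma G_of_fcR {κ Ξ μ c k m₀ m₁ a₁ a₂ : ℝ} (hΞ : 1 - κ * log 2 ≤ Ξ) (hμ0 : 0 ≤ μ) (hμ1 : μ ≤ 1)
    (hL : LK κ ((a₁ + a₂) / 2) ≤ m₀ + m₁ * ((a₁ + a₂) / 2))
    (h : 0 ≤ fcR κ Ξ μ c k m₀ m₁ a₁ a₂) :
    0 ≤ μ * ((LK κ a₁ + LK κ a₂) / 2) - LK κ ((a₁ + a₂) / 2) + c * (a₁ - a₂)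
      - k * ((a₁ + a₂) / 2) := by
  have hmid := LK_mid κ a₁ a₂
  unfold fcR at h
  set A := (a₁ + a₂) / 2 with hA
  have t1 := mul_le_mul_of_nonneg_left hL (show 0 ≤ 1 - μ by linarith)
  have t2 : μ * ((1 - κ * log 2) * (a₁ - a₂) ^ 2) ≤ μ * (Ξ * (a₁ - a₂) ^ 2) :=
    mul_le_mul_of_nonneg_left (mul_le_mul_of_nonneg_right hΞ (sq_nonneg _)) hμ0
  have e : μ * ((LK κ a₁ + LK κ a₂) / 2)
      = μ * LK κ A - μ * (κ * JJ a₁ a₂) - μ * ((1 - κ * log 2) * (a₁ - a₂) ^ 2) := by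
    have : (LK κ a₁ + LK κ a₂) / 2 = LK κ A - κ * JJ a₁ a₂ - (1 - κ * log 2) * (a₁ - a₂) ^ 2 := by
      rw [hmid]
      ring
    rw [this]
    ring
  rw [e]
  nlinarith

/-- The computation at a vertex, in plain variables. -/
lemma vtx_real {κ Ξ μ c k m₀ m₁ a₁ a₂ g g₁ g₂ : ℝ} (hμ0 : 0 ≤ μ) (hκ : 0 ≤ κ)
    (h3 : k * ((a₁ + a₂) / 2) + (μ * (κ * g + Ξ * ((a₁ - a₂) * (a₁ - a₂)))
        + (1 - μ) * (m₀ + m₁ * ((a₁ + a₂) / 2)))
      ≤ c * (a₁ - a₂) + μ * κ * ((g₁ + g₂) * (1 / 2)))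
    (hJ : JJ a₁ a₂ ≤ g - (g₁ + g₂) * (1 / 2)) :
    0 ≤ fcR κ Ξ μ c k m₀ m₁ a₁ a₂ := by
  have t := mul_le_mul_of_nonneg_left hJ (mul_nonneg hμ0 hκ)
  unfold fcR
  have e1 : μ * (κ * JJ a₁ a₂ + Ξ * (a₁ - a₂) ^ 2)
      = μ * κ * JJ a₁ a₂ + μ * (Ξ * ((a₁ - a₂) * (a₁ - a₂))) := by ring
  have e2 : μ * (κ * g + Ξ * ((a₁ - a₂) * (a₁ - a₂)))
      = μ * κ * g + μ * (Ξ * ((a₁ - a₂) * (a₁ - a₂))) := by ring
  have e3 : μ * κ * (g - (g₁ + g₂) * (1 / 2)) = μ * κ * g - μ * κ * ((g₁ + g₂) * (1 / 2)) := by ring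
  rw [e1]
  rw [e2] at h3
  rw [e3] at t
  linarith

/-- Soundness of a vertex. -/
lemma vtx_sound {κ Ξ p LP LQ μ c k a₁ a₂ : NF} (hμ : val μ ≤ 1) (h12 : val a₂ ≤ val a₁)
    (ha1 : val a₁ ≤ 1) (hp : val p ≤ 1 / 2) (h : vtx κ Ξ p LP LQ μ c k a₁ a₂ = true) :
    0 ≤ fcR (val κ) (val Ξ) (val μ) (val c) (val k)
      (maj₀ (val κ) (val Ξ) (val p) (val LP) (val LQ))
      (maj₁ (val κ) (val Ξ) (val p) (val LP) (val LQ)) (val a₁) (val a₂) := by
  have h3 := nle_sound h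
  have hA : val (nmul (nadd a₁ a₂) nhalf) = (val a₁ + val a₂) / 2 := by
    rw [val_mul, val_add, val_half]
    ring
  have hd : val (nsub a₁ a₂) = val a₁ - val a₂ := val_sub' h12
  have hA1 : val (nmul (nadd a₁ a₂) nhalf) ≤ 1 := by
    rw [hA]
    linarith
  have ha2 : val a₂ ≤ 1 := h12.trans ha1
  have e1 := entLoF_le' ha1
  have e2 := entLoF_le' ha2
  have e3 := le_entHiF' hA1
  rw [hA] at e3
  simp only [val_add, val_mul, val_half, val_comp hμ, val_majF hA1 hp, hA, hd] at h3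
  refine vtx_real (val_nonneg μ) (val_nonneg κ) h3 ?_
  unfold JJ
  linarith

lemma getPl_mem : ∀ {l : List MP} {i : ℕ} {q : MP}, getPl l i = some q → q ∈ l := by
  intro l
  induction l with
  | nil =>
    intro i q h
    simp [getPl] at h
  | cons x t ih =>
    intro i q h
    cases i with
    | zero =>
      simp only [getPl, Option.some.injEq] at h
      subst h
      exact List.mem_cons_self
    | succ n =>
      simp only [getPl] at h
      exact List.mem_cons_of_mem _ (ih h)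

/-- The facts available at a noise of the block. -/
structure Ctx (D : MBlock) (ε : ℝ) : Prop where
  G : GlobalsR D.base
  hε : ε ∈ Set.Icc (val D.base.elo) (val D.base.ehi)
  hS : checkSubs D.base = true
  hCH : ∃ e₁, CornerHyp ε (val D.base.κ) (val D.base.K₀) (log (val (ninv D.base.Eb)))
    (val D.base.η) (val D.base.x₀) (val D.base.lamc) e₁ (val D.base.w) (val D.base.Ahi)
    (val D.base.qbar) (val D.base.Eb) (val D.base.Ξlo)
  hehi : val D.base.ehi < 1 / 2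
  hT12 : val D.T₂ ≤ val D.T₁
  hT : binEntropy ε ≤ ((ε - val D.base.elo) * val D.T₁ + (val D.base.ehi - ε) * val D.T₂)
    / (val D.base.ehi - val D.base.elo)
  hP : ∀ q ∈ D.planes, mpOK D q = true

/-- The tangent of the entropy at a rational point. -/
lemma ent_le_tangent {p LP LQ A : ℝ} (hp0 : 0 < p) (hp1 : p ≤ 1 / 2) (hLP : log (1 / p) ≤ LP)
    (hLQ : log (1 / (1 - p)) ≤ LQ) (hA0 : 0 ≤ A) (hA1 : A ≤ 1) :
    binEntropy A ≤ A * LP + (1 - A) * LQ := by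
  have hq : 0 < 1 - p := by linarith
  have hr : 0 < (1 - p) / p := by positivity
  have hg := GG_tangent (a := A) (b := 1 - A) (r := (1 - p) / p) hA0 (by linarith) hr
  have e1 : GG A (1 - A) = binEntropy A := by
    unfold GG
    rw [binEntropy_eq_negMulLog_add_negMulLog_one_sub, show A + (1 - A) = 1 by ring]
    simp
  have e2 : 1 + (1 - p) / p = 1 / p := by
    field_simp
    ring
  have e3 : 1 + 1 / ((1 - p) / p) = 1 / (1 - p) := by
    field_simp
    ring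
  rw [e1, e2, e3] at hg
  have t1 := mul_le_mul_of_nonneg_left hLP hA0
  have t2 := mul_le_mul_of_nonneg_left hLQ (show 0 ≤ 1 - A by linarith)
  linarith

/-- The bounds at a rational point. -/
lemma logs_at {p : NF} (hp0 : 0 < val p) (hp1 : val p ≤ 1 / 2) :
    log (1 / val p) ≤ val (logHiF (ninv p)) ∧
      log (1 / (1 - val p)) ≤ val (logHiF (ninv (ncomp p))) := by
  have hc1 : val (ncomp p) = 1 - val p := val_comp (by linarith)
  have hcp : 0 < val (ncomp p) := by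
    rw [hc1]
    linarith
  have hip : val (ninv p) = 1 / val p := by
    rw [val_inv' hp0, one_div]
  have hiq : val (ninv (ncomp p)) = 1 / (1 - val p) := by
    rw [val_inv' hcp, hc1, one_div]
  constructor
  · have := le_logHiF' (x := ninv p) (by
      rw [hip, le_div_iff₀ hp0]
      linarith)
    rwa [hip] at this
  · have := le_logHiF' (x := ninv (ncomp p)) (by
      rw [hiq, le_div_iff₀ (by linarith)]
      linarith)
    rwa [hiq] at this

/-- Soundness of a leaf with a plane. -/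
lemma pleaf_sound {D : MBlock} {ε : ℝ} (C : Ctx D ε) {a1L a1R a2L a2R : NF} {i : ℕ} {p : NF}
    (h : pleafOK D a1L a1R a2L a2R i p = true) {a₁ a₂ : ℝ} (h1L : val a1L < a₁)
    (h1R : a₁ ≤ val a1R) (h2L : val a2L < a₂) (h2R : a₂ ≤ val a2R) (h20 : 0 < a₂) (h12 : a₂ < a₁)
    (h11 : a₁ < 1) : Close2 ε (val D.base.κ) a₁ a₂ := by
  have G := C.G
  unfold pleafOK at h
  cases hq : getPl D.planes i with
  | none =>
    rw [hq] at h
    simp at h
  | some q =>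
    rw [hq] at h
    simp only [Bool.and_eq_true] at h
    obtain ⟨⟨⟨⟨hp0, hp1⟩, h3⟩, h4⟩, hc⟩ := h
    have hp0' := npos_sound hp0
    have hp1' := nle_sound hp1
    rw [val_half] at hp1'
    have h3' := nle_sound h3
    have h4' := nle_sound h4
    rw [val_one] at h4'
    have hq' := C.hP q (getPl_mem hq)
    unfold mpOK at hq'
    simp only [Bool.and_eq_true] at hq'
    obtain ⟨⟨⟨⟨⟨q1, q2⟩, q3⟩, q4⟩, q5⟩, q6⟩ := hq'
    have q1' := nlt_sound q1
    rw [val_one] at q1'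
    have q2' := nle_sound q2
    have q3' := nle_sound q3
    have q4' := nle_sound q4
    rw [val_one] at q4'
    have helo0 := G.helo
    have hlt := G.hlt
    have hehi := C.hehi
    have r1 : val (rho₁ D) = 1 - 2 * val D.base.ehi := by
      unfold rho₁
      rw [val_comp (by rw [val_mul, val_nnat]; push_cast; linarith), val_mul, val_nnat]
      push_cast
      ring
    have r2 : val (rho₂ D) = 1 - 2 * val D.base.elo := by
      unfold rho₂
      rw [val_comp (by rw [val_mul, val_nnat]; push_cast; linarith), val_mul, val_nnat]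
      push_cast
      ring
    have V₁ := endOK_sound q1' q2' (by rw [r1]; linarith) (by rw [r1]; linarith) q5
    have V₂ := endOK_sound q1' q2' (by rw [r2]; linarith) (by rw [r2]; linarith) q6
    rw [r1] at V₁
    rw [r2] at V₂
    have hμ11 : val q.μ₁ ≤ 1 := q3'.trans q4'
    unfold pcell at hc
    simp only [Bool.and_eq_true] at hc
    obtain ⟨⟨⟨⟨⟨⟨⟨v1, v2⟩, v3⟩, v4⟩, v5⟩, v6⟩, v7⟩, v8⟩ := hc
    have hκ := val_nonneg D.base.κ
    have hΞ := val_nonneg D.base.Ξhi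
    have hξ0 : 0 ≤ 1 - val D.base.κ * log 2 := (val_nonneg _).trans G.hξlo
    have hL2R1 : val a2R ≤ val a1L := h3'
    have hL1R : val a1L ≤ val a1R := by linarith
    have hL1R1 : val a1L ≤ 1 := by linarith
    have hR2R : val a2L ≤ val a2R := by linarith
    have m1L : val a1L ∈ Set.Icc (0 : ℝ) 1 := ⟨val_nonneg _, hL1R1⟩
    have m1R : val a1R ∈ Set.Icc (0 : ℝ) 1 := ⟨val_nonneg _, h4'⟩
    have m2L : val a2L ∈ Set.Icc (0 : ℝ) 1 := ⟨val_nonneg _, by linarith⟩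
    have m2R : val a2R ∈ Set.Icc (0 : ℝ) 1 := ⟨val_nonneg _, by linarith⟩
    have hmem1 : a₁ ∈ Set.Icc (0 : ℝ) 1 := ⟨by linarith, by linarith⟩
    have hmem2 : a₂ ∈ Set.Icc (0 : ℝ) 1 := ⟨by linarith, by linarith⟩
    obtain ⟨hLP, hLQ⟩ := logs_at hp0' hp1'
    have hmaj := LK_le_maj (A := (a₁ + a₂) / 2) hκ G.hξhi hξ0 hp0' hp1' hLP hLQ (by linarith)
      (by linarith)
    have f₁ := fcR_rect hκ hΞ (val_nonneg q.μ₁) h1L h1R h2L h2R m1L m1R m2L m2R
      (vtx_sound hμ11 (by linarith) hL1R1 hp1' v1) (vtx_sound hμ11 hL2R1 hL1R1 hp1' v2)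
      (vtx_sound hμ11 (by linarith) h4' hp1' v3) (vtx_sound hμ11 (by linarith) h4' hp1' v4)
    have f₂ := fcR_rect hκ hΞ (val_nonneg q.μ₂) h1L h1R h2L h2R m1L m1R m2L m2R
      (vtx_sound q4' (by linarith) hL1R1 hp1' v5) (vtx_sound q4' hL2R1 hL1R1 hp1' v6)
      (vtx_sound q4' (by linarith) h4' hp1' v7) (vtx_sound q4' (by linarith) h4' hp1' v8)
    have G₁ := G_of_fcR G.hξhi (val_nonneg q.μ₁) hμ11 hmaj f₁
    have G₂ := G_of_fcR G.hξhi (val_nonneg q.μ₂) q4' hmaj f₂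
    right
    exact close_of_ends C.hε.1 C.hε.2 hlt helo0.le hehi.le V₁ V₂ (val_nonneg _) q3' q4' C.hT12
      (val_nonneg _) C.hT hmem1 hmem2 hκ hξ0 G₁ G₂

lemma val_minHalf (x : NF) : val (minHalf x) = min (val x) (1 / 2) := by
  unfold minHalf
  split_ifs with h
  · rw [min_eq_left]
    have := nle_sound h
    rwa [val_half] at this
  · rw [val_half, min_eq_right]
    by_contra h2
    rw [not_le] at h2
    exact h (nle_complete (by rw [val_half]; exact h2.le))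

/-- Soundness of `omOK`. -/
lemma omOK_sound {z C : NF} (hz0 : 0 < val z) (hz1 : val z < 1) (h : omOK z C = true) :
    Om (val z) ≤ val C * val z ^ 2 := by
  have h8' := nle_sound h
  have hc1 : val (ncomp z) = 1 - val z := val_comp hz1.le
  have hc0 : 0 < 1 - val z := by linarith
  have hi : val (ninv (ncomp z)) = 1 / (1 - val z) := by
    rw [val_inv' (by rw [hc1]; exact hc0), hc1, one_div]
  have h1p : 1 ≤ val (onePlus z) := by
    rw [val_onePlus]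
    linarith
  have hhi := le_logHiF' h1p
  have hlo := logLoF_le' (x := ninv (ncomp z)) (by
    rw [hi, le_div_iff₀ hc0]
    linarith)
  rw [hi, one_div, log_inv] at hlo
  rw [val_onePlus] at hhi
  simp only [val_add, val_mul, val_onePlus, hc1] at h8'
  have t1 := mul_le_mul_of_nonneg_left hhi (show 0 ≤ 1 + val z by linarith)
  have t2 := mul_le_mul_of_nonneg_left hlo hc0.le
  unfold Om
  nlinarith

/-- Soundness of a leaf with the second method. -/
lemma bleaf_sound {D : MBlock} {ε : ℝ} (C : Ctx D ε) {a1L a1R a2L a2R p z Cn : NF}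
    (h : bleafOK D.base a1L a1R a2L a2R p z Cn = true) {a₁ a₂ : ℝ} (h1L : val a1L < a₁)
    (h1R : a₁ ≤ val a1R) (h2L : val a2L < a₂) (h2R : a₂ ≤ val a2R) (h20 : 0 < a₂) (h12 : a₂ < a₁)
    (h11 : a₁ < 1) (hsum : a₁ + a₂ ≤ 1) : Close2 ε (val D.base.κ) a₁ a₂ := by
  have G := C.G
  unfold bleafOK at h
  simp only [Bool.and_eq_true] at h
  obtain ⟨⟨⟨⟨⟨⟨⟨⟨⟨⟨h1, h2⟩, h3⟩, h4⟩, h5⟩, h6⟩, h7⟩, h8⟩, h9⟩, h10⟩, h11'⟩ := h
  set AL := nmul (nadd a1L a2L) nhalf with hAL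
  have hALv : val AL = (val a1L + val a2L) / 2 := by
    rw [hAL, val_mul, val_add, val_half]
    ring
  have hL0 := npos_sound h1
  have hL2 := nle_sound h2
  rw [val_half] at hL2
  have hp0 := npos_sound h3
  have hp2 := nle_sound h4
  rw [val_half] at hp2
  have hz0 := npos_sound h5
  have hz1 := nlt_sound h6
  rw [val_one] at hz1
  have h21 := nle_sound h7
  have hom := omOK_sound hz0 hz1 h8
  have hdz := nle_sound h9
  have hLL := nle_sound h10
  have hdB : val (nsub a1R a2L) = val a1R - val a2L := val_sub' h21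
  rw [hdB, val_mul, val_mul, val_nnat] at hdz
  push_cast at hdz
  obtain ⟨hε1, hε2⟩ := C.hε
  have hε0 : 0 < val D.base.elo := G.helo
  have hε3 : 0 < ε := by linarith
  have hε4 : ε ≤ 1 / 2 := hε2.trans G.hehi
  have hH : 0 ≤ binEntropy ε := binEntropy_nonneg hε3.le (by linarith)
  have hκ := val_nonneg D.base.κ
  have hξ0 : 0 ≤ 1 - val D.base.κ * log 2 := (val_nonneg _).trans G.hξlo
  obtain ⟨hLP, hLQ⟩ := logs_at hp0 hp2
  -- the variables
  obtain ⟨A, hA⟩ : ∃ A, A = (a₁ + a₂) / 2 := ⟨_, rfl⟩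
  obtain ⟨d, hd⟩ : ∃ d, d = a₁ - a₂ := ⟨_, rfl⟩
  have hA2 : A ≤ 1 / 2 := by rw [hA]; linarith
  have hAL_le : val AL ≤ A := by
    rw [hALv, hA]
    linarith
  have hA0 : 0 < A := by linarith
  have hd0 : 0 < d := by rw [hd]; linarith
  have hd2 : d ≤ 2 * A := by rw [hd, hA]; linarith
  have hdle : d ≤ val a1R - val a2L := by rw [hd]; linarith
  have hdzA : d ≤ 2 * val z * A := by
    have : 2 * val z * val AL ≤ 2 * val z * A := mul_le_mul_of_nonneg_left hAL_le (by linarith)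
    linarith
  -- the size
  obtain ⟨s, hs, hs1, hs2⟩ := subs_exists C.hS ε C.hε
  simp only [List.all_eq_true] at h11'
  have hrb := h11' s hs
  unfold rowB2 at hrb
  have hrb' := nle_sound hrb
  have hL1 : val (ncomp AL) = 1 - val AL := val_comp (by linarith)
  have hφL : 0 < val AL * (1 - val AL) := mul_pos hL0 (by linarith)
  have h8pos : 0 < val (nmul (nnat 8) (nmul AL (ncomp AL))) := by
    rw [val_mul, val_mul, val_nnat, hL1]
    push_cast
    linarith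
  set AR := minHalf (nmul (nadd a1R a2R) nhalf) with hAR
  have hARv : val AR = min ((val a1R + val a2R) / 2) (1 / 2) := by
    rw [hAR, val_minHalf, val_mul, val_add, val_half]
    congr 1
    ring
  have hAR2 : val AR ≤ 1 / 2 := by
    rw [hARv]
    exact min_le_right _ _
  have hAAR : A ≤ val AR := by
    rw [hARv]
    apply le_min _ hA2
    rw [hA]
    linarith
  simp only [val_add, val_mul, val_nnat] at hrb'
  rw [val_inv' h8pos, val_mul, val_mul, val_nnat, hL1, val_majF (by linarith) hp2, hdB] at hrb'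
  push_cast at hrb'
  have hm1 : 0 ≤ maj₁ (val D.base.κ) (val D.base.Ξhi) (val p) (val (logHiF (ninv p)))
      (val (logHiF (ninv (ncomp p)))) := by
    unfold maj₁
    have t1 : 0 ≤ val D.base.κ * (val (logHiF (ninv p)) - val (logHiF (ninv (ncomp p)))) :=
      mul_nonneg hκ (by
        have := nle_sound h10
        linarith)
    have t2 : 0 ≤ val D.base.Ξhi * (4 * (1 - 2 * val p)) :=
      mul_nonneg (val_nonneg _) (by linarith)
    linarith
  have hmaj := LK_le_maj (A := A) hκ G.hξhi hξ0 hp0 hp2 hLP hLQ hA0.le (by linarith)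
  have hLX : LK (val D.base.κ) A ≤ maj₀ (val D.base.κ) (val D.base.Ξhi) (val p)
      (val (logHiF (ninv p))) (val (logHiF (ninv (ncomp p))))
      + maj₁ (val D.base.κ) (val D.base.Ξhi) (val p) (val (logHiF (ninv p)))
      (val (logHiF (ninv (ncomp p)))) * val AR := by
    have := mul_le_mul_of_nonneg_left hAAR hm1
    linarith
  have hsize := B_size (H := binEntropy ε) (κ := val D.base.κ) (C := val Cn) (φ := A * (1 - A))
    (φL := val AL * (1 - val AL)) (ξ := 1 - val D.base.κ * log 2) (Ξ := val D.base.Ξhi)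
    (Lc := LK (val D.base.κ) A) (l := log 2) (il := val il2F) (d := d)
    (dB := val a1R - val a2L) (A := ε * (1 - ε)) hH hs1 hκ
    (val_nonneg _) hφL (eps_mono hL0.le hAL_le hA2) hξ0 G.hξhi
    (LK_nonneg hκ hξ0 hA0.le (by linarith)) hLX (log_pos (by norm_num)) le_il2F hd0.le hdle hs2 hrb'
  have := close_B hε3 hε4 hκ hξ0 hA0 hA2 hd0 hd2 hdzA hz1.le hom hsize
  rw [hA, hd, show (a₁ + a₂) / 2 + (a₁ - a₂) / 2 = a₁ by ring,
    show (a₁ + a₂) / 2 - (a₁ - a₂) / 2 = a₂ by ring] at this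
  exact Or.inl this

/-- Soundness of the tree. -/
theorem chk_sound {D : MBlock} {ε : ℝ} (C : Ctx D ε) :
    ∀ (t : TN) (a1L a1R a2L a2R : NF), chk D a1L a1R a2L a2R t = true →
      ∀ a₁ a₂ : ℝ, val a1L < a₁ → a₁ ≤ val a1R → val a2L < a₂ → a₂ ≤ val a2R → 0 < a₂ → a₂ < a₁ →
        a₁ < 1 → a₁ + a₂ ≤ 1 → Close2 ε (val D.base.κ) a₁ a₂ := by
  have G := C.G
  intro t
  induction t with
  | out =>
    intro a1L a1R a2L a2R h a₁ a₂ h1L h1R h2L h2R h20 h12 h11 hsum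
    exfalso
    simp only [chk] at h
    rcases Bool.or_eq_true _ _ |>.mp h with h | h
    · have := nle_sound h
      linarith
    · have := nle_sound h
      rw [val_one, val_add] at this
      linarith
  | methA =>
    intro a1L a1R a2L a2R h a₁ a₂ h1L h1R h2L h2R h20 h12 h11 hsum
    simp only [chk] at h
    have h1 := nle_sound h
    rw [val_mul, val_add, val_half] at h1
    have hA : (a₁ + a₂) / 2 ≤ val D.base.A₀ := by linarith
    have hA0 : 0 ≤ (a₁ + a₂) / 2 := by linarith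
    have ha₁ : a₁ ∈ Set.Icc (0 : ℝ) 1 := ⟨by linarith, by linarith⟩
    have ha₂ : a₂ ∈ Set.Icc (0 : ℝ) 1 := ⟨by linarith, by linarith⟩
    obtain ⟨hε1, hε2⟩ := C.hε
    have hε3 : 0 < ε := by linarith [G.helo]
    have hε4 : ε ≤ 1 / 2 := hε2.trans G.hehi
    have hH : 0 ≤ binEntropy ε := binEntropy_nonneg hε3.le (by linarith)
    obtain ⟨s, hs, hs1, hs2⟩ := subs_exists C.hS ε C.hε
    obtain ⟨hs3, hs4⟩ := subs_conditions C.hS s hs
    have hφ : (a₁ + a₂) / 2 * (1 - (a₁ + a₂) / 2) ≤ val D.base.v₀ :=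
      (eps_mono hA0 hA G.hA₀2).trans G.hv₀
    have hsize : binEntropy ε * (val D.base.κ + 8 * val D.base.Ξhi * val D.base.v₀)
        ≤ 4 * (ε * (1 - ε)) := by
      have h0 : 0 ≤ val D.base.κ + 8 * val D.base.Ξhi * val D.base.v₀ := by
        have := val_nonneg D.base.κ
        have := val_nonneg D.base.Ξhi
        have := val_nonneg D.base.v₀
        positivity
      have := mul_le_mul_of_nonneg_right hs1 h0
      linarith
    exact Or.inl (close_A hε3.le (by linarith) ha₁ ha₂ hφ G.hξhi hsize (val_nonneg _))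
  | corner =>
    intro a1L a1R a2L a2R h a₁ a₂ h1L h1R h2L h2R h20 h12 h11 hsum
    simp only [chk, Bool.and_eq_true] at h
    have h1 := nle_sound h.1
    have h2 := nle_sound h.2
    rw [val_comp (by linarith [G.hx₀2]), val_sub' h1] at h2
    obtain ⟨e₁, CH⟩ := C.hCH
    have ha₁ : a₁ ∈ Set.Icc (0 : ℝ) 1 := ⟨by linarith, by linarith⟩
    have ha₂ : a₂ ∈ Set.Icc (0 : ℝ) 1 := ⟨by linarith, by linarith⟩
    have hab : |a₁ - a₂| = a₁ - a₂ := abs_of_pos (by linarith)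
    exact Or.inl (corner_close CH ha₁ ha₂ (by rw [hab]; linarith) (by rw [hab]; linarith))
  | bleaf p z Cn =>
    intro a1L a1R a2L a2R h a₁ a₂ h1L h1R h2L h2R h20 h12 h11 hsum
    simp only [chk] at h
    exact bleaf_sound C h h1L h1R h2L h2R h20 h12 h11 hsum
  | pleaf i p =>
    intro a1L a1R a2L a2R h a₁ a₂ h1L h1R h2L h2R h20 h12 h11 hsum
    simp only [chk] at h
    exact pleaf_sound C h h1L h1R h2L h2R h20 h12 h11
  | s1 x l r ihl ihr =>
    intro a1L a1R a2L a2R h a₁ a₂ h1L h1R h2L h2R h20 h12 h11 hsum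
    simp only [chk, Bool.and_eq_true] at h
    by_cases hx : a₁ ≤ val x
    · exact ihl _ _ _ _ h.1 a₁ a₂ h1L hx h2L h2R h20 h12 h11 hsum
    · exact ihr _ _ _ _ h.2 a₁ a₂ (not_le.mp hx) h1R h2L h2R h20 h12 h11 hsum
  | s2 x l r ihl ihr =>
    intro a1L a1R a2L a2R h a₁ a₂ h1L h1R h2L h2R h20 h12 h11 hsum
    simp only [chk, Bool.and_eq_true] at h
    by_cases hx : a₂ ≤ val x
    · exact ihl _ _ _ _ h.1 a₁ a₂ h1L h1R h2L hx h20 h12 h11 hsum
    · exact ihr _ _ _ _ h.2 a₁ a₂ h1L h1R (not_le.mp hx) h2R h20 h12 h11 hsum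

/-- The facts from the check of the linear bound of the entropy. -/
lemma checkT_sound {D : MBlock} (G : GlobalsR D.base) (h : checkT D = true) {ε : ℝ}
    (hε : ε ∈ Set.Icc (val D.base.elo) (val D.base.ehi)) :
    val D.base.ehi < 1 / 2 ∧ val D.T₂ ≤ val D.T₁ ∧
      binEntropy ε ≤ ((ε - val D.base.elo) * val D.T₁ + (val D.base.ehi - ε) * val D.T₂)
        / (val D.base.ehi - val D.base.elo) := by
  unfold checkT at h
  simp only [Bool.and_eq_true] at h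
  obtain ⟨⟨⟨⟨⟨h1, h2⟩, h3⟩, h4⟩, h5⟩, h6⟩ := h
  have h1' := nlt_sound h1
  rw [val_half] at h1'
  have h2' := npos_sound h2
  have h3' := nle_sound h3
  rw [val_half] at h3'
  have h4' := nle_sound h4
  have h5' := nle_sound h5
  have h6' := nle_sound h6
  obtain ⟨hLP, hLQ⟩ := logs_at h2' h3'
  refine ⟨h1', h6', ?_⟩
  have helo0 := G.helo
  have hlt := G.hlt
  have hD : 0 < val D.base.ehi - val D.base.elo := by linarith
  have hε0 : 0 ≤ ε := by linarith [hε.1]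
  have hε1 : ε ≤ 1 := by linarith [hε.2]
  have hent := ent_le_tangent h2' h3' hLP hLQ hε0 hε1
  unfold ntang at h4' h5'
  simp only [val_add, val_mul, val_comp (show val D.base.ehi ≤ 1 by linarith),
    val_comp (show val D.base.elo ≤ 1 by linarith)] at h4' h5'
  set LP := val (logHiF (ninv D.pt))
  set LQ := val (logHiF (ninv (ncomp D.pt)))
  rw [le_div_iff₀ hD]
  have t1 := mul_le_mul_of_nonneg_left h4' (show 0 ≤ ε - val D.base.elo by linarith [hε.1])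
  have t2 := mul_le_mul_of_nonneg_left h5' (show 0 ≤ val D.base.ehi - ε by linarith [hε.2])
  have t3 := mul_le_mul_of_nonneg_right hent hD.le
  nlinarith

/-- The theorem on a block. -/
theorem mblock_sound {D : MBlock} (hc : checkM D = true) {ε : ℝ}
    (hε : ε ∈ Set.Icc (val D.base.elo) (val D.base.ehi)) {n : ℕ} (f : Cube n → Bool) :
    mutualInfo ε f ≤ 1 - h2 ε := by
  unfold checkM at hc
  simp only [Bool.and_eq_true] at hc
  obtain ⟨⟨⟨⟨⟨hG, hS⟩, hCo⟩, hT⟩, hPl⟩, hTr⟩ := hc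
  have G := globals_sound hG
  have hε0 : 0 < ε := lt_of_lt_of_le G.helo hε.1
  have hε2 : ε ≤ 1 / 2 := hε.2.trans G.hehi
  have hξ0 : 0 ≤ 1 - val D.base.κ * log 2 := (val_nonneg _).trans G.hξlo
  have hκ := val_nonneg D.base.κ
  have hH : 0 ≤ binEntropy ε := binEntropy_nonneg hε0.le (by linarith)
  obtain ⟨s, hs, hs1, _⟩ := subs_exists hS ε hε
  obtain ⟨hs3, _⟩ := subs_conditions hS s hs
  have hsize : binEntropy ε * (val D.base.κ + 2 * (1 - val D.base.κ * log 2)) ≤ 1 := by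
    have t1 : binEntropy ε * (val D.base.κ + 2 * (1 - val D.base.κ * log 2))
        ≤ binEntropy ε * (val D.base.κ + 2 * val D.base.Ξhi) :=
      mul_le_mul_of_nonneg_left (by linarith [G.hξhi]) hH
    have t2 : binEntropy ε * (val D.base.κ + 2 * val D.base.Ξhi)
        ≤ val s.2.1 * (val D.base.κ + 2 * val D.base.Ξhi) :=
      mul_le_mul_of_nonneg_right hs1 (by
        have := val_nonneg D.base.Ξhi
        positivity)
    linarith
  obtain ⟨hT1, hT2, hT3⟩ := checkT_sound G hT hε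
  have C : Ctx D ε := ⟨G, hε, hS, corner_sound G hCo ε hε, hT1, hT2, hT3,
    by
      simp only [List.all_eq_true] at hPl
      exact hPl⟩
  refine ck_of_close2 hε0 hε2 hκ hξ0 hsize ?_ f
  intro a₁ a₂ h20 h12 h11 hsum
  refine chk_sound C D.tree _ _ _ _ hTr a₁ a₂ ?_ ?_ ?_ ?_ h20 h12 h11 hsum
  · have : val ((0, 0) : NF) = 0 := by
      unfold val
      simp
    rw [this]
    linarith
  · rw [val_one]
    linarith
  · have : val ((0, 0) : NF) = 0 := by
      unfold val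
      simp
    rw [this]
    exact h20
  · rw [val_half]
    linarith

end Vale.Agent.P322
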